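import Vale.Agent.P011LI.Abs
import Vale.Agent.P011LE.Defs
import Mathlib.GroupTheory.SemidirectProduct

/-!
The extension of the Galois group defined by projective descent data.
-/

open Matrix Filter Equiv SemidirectProduct

noncomputable section

namespace Vale.Agent.P011LI

open P011LD P011LE

variable {k K : Type} [Field k] [Field K] [Algebra k K] {n : Type} [Fintype n] [DecidableEq n]
  (o : (K ≃ₐ[k] K) →* ℤˣ) {σ τ : K ≃ₐ[k] K}

variable (n) in
/-- The scalar matrices. -/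
abbrev sc : Kˣ →* GL n K := GeneralLinearGroup.scalar n

theorem st_in (h : o σ = 1) (g : GL n K) : (st o σ g).1 = g.1.map σ := by
  rw [st, if_pos h]
  rfl

theorem st_out (h : o σ ≠ 1) (g : GL n K) : (st o σ g).1 = (g⁻¹.1.map σ)ᵀ := by
  rw [st, if_neg h]
  rfl

theorem st_one (g : GL n K) : st o 1 g = g := Units.ext (st_in o (map_one o) g)

theorem st_mul (σ τ : K ≃ₐ[k] K) (g : GL n K) : st o (σ * τ) g = st o σ (st o τ g) := by
  unfold st
  rw [map_mul]
  rcases Int.units_eq_one_or (o σ) with h | h <;> rcases Int.units_eq_one_or (o τ) with h' | h' <;>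
    rw [h, h'] <;> exact Units.ext rfl

variable (n) in
/-- The twisted action on the general linear group. -/
def sA : (K ≃ₐ[k] K) →* MulAut (GL n K) where
  toFun σ :=
    { toFun := st o σ
      invFun := st o σ⁻¹
      left_inv := fun g => by rw [← st_mul, inv_mul_cancel, st_one]
      right_inv := fun g => by rw [← st_mul, mul_inv_cancel, st_one]
      map_mul' := map_mul _ }
  map_one' := MulEquiv.ext (st_one o)
  map_mul' σ τ := MulEquiv.ext (st_mul o σ τ)

variable (n) in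
/-- The semilinear group. -/
abbrev SL : Type := GL n K ⋊[sA n o] (K ≃ₐ[k] K)

/-- The twisted action on the scalars. -/
def aK : (K ≃ₐ[k] K) →* Monoid.End Kˣ where
  toFun σ := (zpowGroupHom ((o σ : ℤˣ) : ℤ)).comp (Units.map (σ : K →* K))
  map_one' := MonoidHom.ext fun x => by
    rw [map_one]
    exact zpow_one x
  map_mul' σ τ := MonoidHom.ext fun x => by
    change (Units.map (σ : K →* K) (Units.map (τ : K →* K) x)) ^ ((o (σ * τ) : ℤˣ) : ℤ) =
      (Units.map (σ : K →* K) (Units.map (τ : K →* K) x ^ ((o τ : ℤˣ) : ℤ))) ^ ((o σ : ℤˣ) : ℤ)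
    rw [map_zpow, ← zpow_mul, map_mul, Units.val_mul, mul_comm]

theorem aK_in (h : o σ = 1) (x : Kˣ) : (aK o σ x : K) = σ x := by
  change ((Units.map (σ : K →* K) x ^ ((o σ : ℤˣ) : ℤ) : Kˣ) : K) = _
  simp [h]

theorem aK_out (h : o σ ≠ 1) (x : Kˣ) : (aK o σ x : K) = (σ x)⁻¹ := by
  change ((Units.map (σ : K →* K) x ^ ((o σ : ℤˣ) : ℤ) : Kˣ) : K) = _
  simp [(Int.units_eq_one_or _).resolve_left h]

omit [Algebra k K] in
theorem mono_mul (π π' : Perm n) (c c' : n → K) :
    mono π c * mono π' c' = mono (π * π') fun j => c (π' j) * c' j := by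
  ext i j
  simp [mono, mul_apply]
  congr

/-- Invertible monomial matrices. -/
def mg (π : Perm n) (c : n → Kˣ) : GL n K where
  val := mono π fun j => c j
  inv := mono π⁻¹ fun j => (c (π⁻¹ j))⁻¹
  val_inv := by
    rw [mono_mul]
    ext
    simp [mono, one_apply]
  inv_val := by
    rw [mono_mul]
    ext
    simp [mono, one_apply]

theorem st_mg (σ : K ≃ₐ[k] K) (π : Perm n) (c : n → Kˣ) :
    st o σ (mg π c) = mg π fun j => aK o σ (c j) := Units.ext (by
  by_cases h : o σ = 1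
  · rw [st_in o h]
    ext
    simp [mg, mono, aK_in o h, apply_ite σ]
  · rw [st_out o h]
    ext i j
    change σ (mono π⁻¹ (fun j => ((c (π⁻¹ j))⁻¹ : K)) j i) = _
    by_cases e : i = π j
    · simp [mg, mono, aK_out o h, e]
    · simp [mg, mono, e, Equiv.eq_symm_apply, Ne.symm e])

omit [Algebra k K] in
theorem sc_val (x : Kˣ) : (sc n x).1 = (x : K) • 1 := by
  rw [smul_one_eq_diagonal]
  rfl

omit [Algebra k K] in
theorem sc_mg (x : Kˣ) : sc n x = mg 1 fun _ => x := Units.ext (by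
  rw [sc_val]
  ext
  simp [mg, mono, one_apply]
  congr)

omit [Algebra k K] in
theorem sc_mul (x : Kˣ) (g : GL n K) : (sc n x * g).1 = (x : K) • g.1 := by
  rw [Units.val_mul, sc_val, smul_one_mul]

omit [Algebra k K] in
theorem mul_sc (x : Kˣ) (g : GL n K) : g * sc n x = sc n x * g := Units.ext (by
  rw [sc_mul, Units.val_mul, sc_val, mul_smul_one])

theorem st_sc (σ : K ≃ₐ[k] K) (x : Kˣ) : st o σ (sc n x) = sc n (aK o σ x) := by
  rw [sc_mg, st_mg, sc_mg]

theorem det_st (σ : K ≃ₐ[k] K) (g : GL n K) :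
    GeneralLinearGroup.det (st o σ g) = aK o σ (GeneralLinearGroup.det g) := Units.ext (by
  have e : ∀ M : Matrix n n K, (M.map σ).det = σ M.det := fun M =>
    (RingHom.map_det (σ : K →+* K) M).symm
  by_cases h : o σ = 1
  · rw [aK_in o h, GeneralLinearGroup.val_det_apply, st_in o h, e]
    rfl
  · rw [aK_out o h, GeneralLinearGroup.val_det_apply, st_out o h, det_transpose, e, ← map_inv₀,
      ← Units.val_inv_eq_inv_val, ← map_inv]
    rfl)

variable (n) in
/-- The action of the semilinear group on the scalars. -/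
def aS : SL n o →* Monoid.End Kˣ := (aK o).comp rightHom

variable (n) in
/-- The scalars. -/
def iS : Kˣ →* SL n o := inl.comp (sc n)

variable (n) in
/-- The open subgroups of the Galois group. -/
def nb : Filter (SL n o) where
  sets := {P | Op ⊤ fun σ => inr σ ∈ P}
  univ_sets := ⟨∅, fun _ _ _ => trivial⟩
  sets_of_superset h e := Op.imp h fun _ _ m => e m
  inter_sets := Op.and

variable {o}

theorem ev_nb {P : SL n o → Prop} : (∀ᶠ u in nb n o, P u) ↔ Op ⊤ fun σ => P (inr σ) := Iff.rfl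

theorem ex_SL (ho : Op ⊤ fun σ => o σ = 1) : Ex (aS n o) (iS n o) (nb n o) := by
  classical
  refine ⟨fun e x => SemidirectProduct.ext ?_ (by simp [iS]), fun t P ⟨S, hS⟩ => ?_,
    fun y => (ho.and (Op.fix ⊤ y.1)).imp fun σ _ e => Units.ext ((aK_in o e.1 y).trans e.2),
    fun x y => DFunLike.congr_fun (map_one (aK o)) y⟩
  · exact (congrArg _ (st_sc o _ x)).trans ((mul_sc _ _).trans (congrArg _ (st_one o _).symm))
  · refine ((ho.and (Op.mat ⊤ t.left.1)).and
      ⟨S.image t.right, fun σ _ h => hS (t.right⁻¹ * σ * t.right) trivial fun x m => ?_⟩).imp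
      fun σ _ e => ?_
    · rw [AlgEquiv.mul_apply, AlgEquiv.mul_apply, h _ (Finset.mem_image_of_mem _ m)]
      exact t.right.symm_apply_apply x
    · have h : st o σ t.left = t.left := Units.ext ((st_in o e.1.1 _).trans e.1.2)
      have h' : (inr σ * t : SL n o) = t * inr (t.right⁻¹ * σ * t.right) :=
        SemidirectProduct.ext ((one_mul _).trans (h.trans (by simp))) (by simp [mul_assoc])
      change t⁻¹ * inr σ * t ∈ P
      rw [mul_assoc, h', inv_mul_cancel_left]
      exact e.2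

theorem cr_det (D : Subgroup (SL n o)) : Cr (aS n o) (iS n o) (nb n o) D (Fintype.card n)
    fun e => GeneralLinearGroup.det e.left :=
  ⟨fun e _ e' _ => (map_mul _ _ _).trans (congrArg _ (det_st o _ _)), fun x => Units.ext (by
    change (sc n x).1.det = _
    simp), ⟨∅, fun _ _ _ => map_one _⟩⟩

/-- A stable line gives a crossed homomorphism of level one. -/
theorem cr_line {D : Subgroup (SL n o)} {v : n → K} (hv : v ≠ 0) (h : ∀ e ∈ D, o e.right = 1 ∧
    ∃ μ : K, e.left.1 *ᵥ (e.right ∘ v) = μ • v) : ∃ φ, Cr (aS n o) (iS n o) (nb n o) D 1 φ := by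
  classical
  let P : SL n o → Kˣ → Prop := fun e μ => e.left.1 *ᵥ (e.right ∘ v) = μ.1 • v
  let φ : SL n o → Kˣ := fun e => if h : ∃ μ, P e μ then h.choose else 1
  have h1 : ∀ e μ, P e μ → φ e = μ := fun e μ m => Units.ext (smul_left_injective K hv (by
    have := (Exists.intro μ m).choose_spec
    simp only [φ, dif_pos (Exists.intro μ m)]
    exact this.symm.trans m))
  have h2 : ∀ e ∈ D, P e (φ e) := fun e m => by
    obtain ⟨μ, e1⟩ := (h e m).2
    have h0 : μ ≠ 0 := by
      rintro rfl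
      have := congrArg (e.left⁻¹.1 *ᵥ ·) e1
      simp only [mulVec_mulVec, Units.inv_mul, one_mulVec, zero_smul, mulVec_zero] at this
      exact hv (funext fun i => (map_eq_zero _).1 (congrFun this i))
    exact (h1 e (Units.mk0 μ h0) e1).symm ▸ e1
  refine ⟨φ, fun e m e' m' => h1 _ _ ?_, fun x => h1 _ _ ?_,
    (Op.vec ⊤ v).imp fun σ _ e => h1 _ _ ?_⟩
  · change (e.left.1 * (st o e.right e'.left).1) *ᵥ (e.right ∘ (e'.right ∘ v)) =
      (_ * (aK o e.right (φ e') : K)) • v
    have h3 : e'.left.1.map e.right *ᵥ (e.right ∘ (e'.right ∘ v)) =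
        e.right (φ e') • (e.right ∘ v) := funext fun i =>
      (RingHom.map_mulVec (e.right : K →+* K) _ _ i).symm.trans
        ((congrArg e.right (congrFun (h2 e' m') i)).trans (map_mul _ _ _))
    rw [st_in o (h e m).1, aK_in o (h e m).1, ← mulVec_mulVec, h3, mulVec_smul, h2 e m, smul_smul,
      mul_comm]
  · change (sc n x).1 *ᵥ v = _
    rw [sc_val, smul_mulVec, one_mulVec, zpow_one]
  · change (1 : Matrix n n K) *ᵥ (σ ∘ v) = (1 : K) • v
    rw [e, one_mulVec, one_smul]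

/-- Transfer from the inner elements. -/
theorem cr_tr (ho : Op ⊤ fun σ => o σ = 1) (hn : Odd (Fintype.card n)) {D D' : Subgroup (SL n o)}
    (hD : ∀ e ∈ D, o e.right = 1 → e ∈ D') {φ} (h : Cr (aS n o) (iS n o) (nb n o) D' 1 φ) :
    ∃ φ, Cr (aS n o) (iS n o) (nb n o) D 1 φ := by
  by_cases e : ∀ t ∈ D, o t.right = 1
  · exact ⟨φ, h.mono fun t m => hD t m (e t m)⟩
  obtain ⟨t, m, e⟩ := by simpa only [not_forall, exists_prop] using e
  obtain ⟨r, hr⟩ := hn
  have h1 := (h.ind (π := (MulAction.toPermHom ℤˣ ℤˣ).comp (o.comp rightHom)) (D := D) (ex_SL ho)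
    (fun x => by ext; simp [iS]) (ho.imp fun σ _ e => by ext; simp [e]) (j₀ := 1)
    (fun s m e => hD s m (by simpa using e)) (t := fun j => if j = 1 then 1 else t)
    (fun j => by split_ifs; exacts [D.one_mem, m]) fun j => by
      rcases Int.units_eq_one_or j with rfl | rfl
      · simp
      · simpa using (Int.units_eq_one_or _).resolve_left e).prod
  have h2 := (cr_det D).comb h1 (-r)
  rw [hr, show ((2 * r + 1 : ℕ) : ℤ) + (Fintype.card ℤˣ : ℕ) * -(r : ℤ) = 1 by simp] at h2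
  exact ⟨_, h2⟩

variable [Nonempty n] {p : (K ≃ₐ[k] K) → GL n K}

omit [Algebra k K] in
theorem ex_sc {g g' : GL n K} {z : K} (h : g.1 = z • g'.1) : ∃ x : Kˣ, x = z ∧ g = sc n x * g' :=
  have h0 : z ≠ 0 := fun e => g.ne_zero (by rw [h, e, zero_smul])
  ⟨Units.mk0 z h0, rfl, Units.ext (h.trans (sc_mul (Units.mk0 z h0) g').symm)⟩

theorem PD.one (h : PD o p) : ∃ x : Kˣ, p 1 = sc n x * 1 :=
  let ⟨_, hS⟩ := h.cont
  let ⟨_, e⟩ := (hS 1 trivial fun _ _ => rfl).2
  (ex_sc (g' := 1) e).imp fun _ => And.right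

/-- The extension. -/
def ext (h : PD o p) : Subgroup (SL n o) :=
  have m : ∀ {e e' : SL n o}, (∃ x, e.left = sc n x * p e.right) →
      (∃ x, e'.left = sc n x * p e'.right) →
      ∃ x, (e * e').left = sc n x * p (e * e').right := fun {e e'} ⟨x, a⟩ ⟨y, b⟩ => by
    obtain ⟨z, c⟩ := h.mul e.right e'.right
    obtain ⟨z, -, c⟩ := ex_sc c
    refine ⟨x * aK o e.right y * z, ?_⟩
    change e.left * st o e.right e'.left = _ * p (_ * _)
    rw [a, b, map_mul, st_sc, mul_assoc, ← mul_assoc (p _), mul_sc, mul_assoc, c, map_mul, map_mul,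
      mul_assoc, mul_assoc]
  have i : ∀ x, ∃ y, (iS n o x).left = sc n y * p (iS n o x).right := fun x => by
    obtain ⟨y, a⟩ := PD.one h
    exact ⟨x * y⁻¹, by simp [iS, a]⟩
  { carrier := {e | ∃ x, e.left = sc n x * p e.right}
    mul_mem' := m
    one_mem' := map_one (iS n o) ▸ i 1
    inv_mem' := fun {e} a => by
      let e' : SL n o := ⟨p e.right⁻¹, e.right⁻¹⟩
      obtain ⟨x, b⟩ := m (e' := e') a ⟨1, by simp [e']⟩
      obtain ⟨y, c⟩ := PD.one h
      have d : e * e' = iS n o (x * y) := SemidirectProduct.ext (by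
        rw [b]
        simp [e', iS, c]) (by simp [e', iS])
      rw [show e⁻¹ = e' * iS n o (x * y)⁻¹ by rw [map_inv, ← d]; group]
      exact m ⟨1, by simp [e']⟩ (i _) }

variable (h : PD o p)

theorem sec_mem (σ : K ≃ₐ[k] K) : (⟨p σ, σ⟩ : SL n o) ∈ ext h := ⟨1, by simp⟩

theorem iS_mem (x : Kˣ) : iS n o x ∈ ext h := by
  obtain ⟨y, a⟩ := PD.one h
  exact ⟨x * y⁻¹, by simp [iS, a]⟩

omit [Nonempty n] in
theorem eq_sec {e : SL n o} {x : Kˣ} (a : e.left = sc n x * p e.right) :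
    e = iS n o x * ⟨p e.right, e.right⟩ :=
  SemidirectProduct.ext (a.trans (congrArg _ (st_one o _).symm)) (one_mul _).symm

variable {J : Type} {π : (K ≃ₐ[k] K) →* Perm J} {c : SL n o → J → Kˣ}
  (H : Mc (aS n o) (iS n o) (nb n o) (ext h) (π.comp rightHom) c)
include H

theorem c_sc {e : SL n o} (m : e ∈ ext h) (x : Kˣ) (j : J) : c (iS n o x * e) j = x * c e j := by
  rw [H.mul _ (iS_mem h x) e m, H.lvl]
  exact congrArg _ (DFunLike.congr_fun (map_one (aK o)) _)

theorem c_mul {z : K} (e : (p σ * st o σ (p τ)).1 = z • (p (σ * τ)).1) (j : J) :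
    (c ⟨p σ, σ⟩ (π τ j) * aK o σ (c ⟨p τ, τ⟩ j) : Kˣ) = z * c ⟨p (σ * τ), σ * τ⟩ j := by
  obtain ⟨z, rfl, e'⟩ := ex_sc e
  exact congrArg Units.val ((H.mul _ (sec_mem h σ) _ (sec_mem h τ) j).symm.trans
    ((congrArg (c · j) (eq_sec (e := ⟨p σ, σ⟩ * ⟨p τ, τ⟩) e')).trans (c_sc h H (sec_mem h _) z j)))

theorem c_cont : Op ⊤ fun σ => o σ = 1 ∧ ∃ z : K, (p σ).1 = z • 1 ∧ ∀ j, c ⟨p σ, σ⟩ j = z :=
  (h.cont.and H.cont).imp fun σ _ ⟨⟨a, z, b⟩, d⟩ => ⟨a, z, b, fun j => by
    obtain ⟨z, rfl, b'⟩ := ex_sc (g' := 1) b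
    have e : (⟨p σ, σ⟩ : SL n o) = iS n o z * inr σ := SemidirectProduct.ext (by simp [iS, b'])
      (by simp [iS])
    rw [e, c_sc h H ⟨z⁻¹, by simp [b']⟩, d j, mul_one]⟩

end Vale.Agent.P011LI
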