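import Mathlib.Algebra.BigOperators.Group.Finset.Basic
import Mathlib.Algebra.Group.End
import Mathlib.Algebra.Group.Subgroup.Defs
import Mathlib.Algebra.Group.Hom.End
import Mathlib.Order.Filter.Finite
import Mathlib.Order.Filter.Tendsto
import Mathlib.Tactic.Group

/-!
Crossed homomorphisms on an extension: induction and transfer.
-/

open Filter Equiv

namespace Vale.Agent.P011LI

variable {S A J : Type} [Group S] [CommGroup A] (a : S →* Monoid.End A) (ι : A →* S)
  (N : Filter S)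

/-- A group with a normal abelian subgroup and a notion of small elements. -/
structure Ex : Prop where
  cm : ∀ e x, e * ι x = ι (a e x) * e
  cj : ∀ t, Tendsto (fun u => t⁻¹ * u * t) N N
  fx : ∀ y, ∀ᶠ u in N, a u y = y
  tr : ∀ x y, a (ι x) y = y

/-- Crossed homomorphisms of level `n`. -/
structure Cr (D : Subgroup S) (n : ℤ) (φ : S → A) : Prop where
  mul : ∀ e ∈ D, ∀ e' ∈ D, φ (e * e') = φ e * a e (φ e')
  lvl : ∀ x, φ (ι x) = x ^ n
  cont : ∀ᶠ u in N, φ u = 1

/-- Monomial cochains. -/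
structure Mc (D : Subgroup S) (π : S →* Perm J) (c : S → J → A) : Prop where
  mul : ∀ e ∈ D, ∀ e' ∈ D, ∀ j, c (e * e') j = c e (π e' j) * a e (c e' j)
  lvl : ∀ x j, c (ι x) j = x
  cont : ∀ᶠ u in N, ∀ j, c u j = 1

variable {a ι N} {D D' : Subgroup S} {π : S →* Perm J} {c : S → J → A} {φ ψ : S → A} {m n : ℤ}

theorem a_mul (e e' : S) (x : A) : a (e * e') x = a e (a e' x) := by
  rw [map_mul]
  rfl

theorem Cr.mono (h : Cr a ι N D n φ) (l : D' ≤ D) : Cr a ι N D' n φ :=
  ⟨fun e s e' s' => h.mul e (l s) e' (l s'), h.lvl, h.cont⟩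

theorem Cr.comb (h : Cr a ι N D m φ) (h' : Cr a ι N D n ψ) (v : ℤ) :
    Cr a ι N D (m + n * v) fun e => φ e * ψ e ^ v :=
  ⟨fun e s e' s' => by
    rw [h.mul e s e' s', h'.mul e s e' s', map_mul (a e), map_zpow, mul_zpow, mul_mul_mul_comm],
    fun x => by rw [h.lvl, h'.lvl, zpow_add, zpow_mul],
    (h.cont.and h'.cont).mono fun u e => by rw [e.1, e.2, one_zpow, mul_one]⟩

theorem Cr.mc (h : Cr a ι N D 1 φ) : Mc a ι N D (1 : S →* Perm J) fun e _ => φ e :=
  ⟨fun e s e' s' _ => h.mul e s e' s', fun x _ => (h.lvl x).trans (zpow_one x),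
    h.cont.mono fun _ e _ => e⟩

theorem Mc.prod [Fintype J] (h : Mc a ι N D π c) :
    Cr a ι N D (Fintype.card J) fun e => ∏ j, c e j :=
  ⟨fun e s e' s' => by
    simp only [h.mul e s e' s', Finset.prod_mul_distrib, map_prod, Equiv.prod_comp (π e') (c e)],
    fun x => by simp [h.lvl], h.cont.mono fun u e => by simp [e]⟩

theorem Mc.fix (h : Mc a ι N D π c) {e r : S} (he : e ∈ D) (hr : r ∈ D) (h1 : π e = 1) {j₀ : J}
    (h2 : ∀ j, c e j = c e j₀) (h3 : ∀ j, c (r⁻¹ * e * r) j = c (r⁻¹ * e * r) j₀) (i j : J) :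
    a e (c r i / c r j) = c r i / c r j := by
  have key : ∀ j, c e j₀ * a e (c r j) = c r j * a r (c (r⁻¹ * e * r) j₀) := fun j => by
    have := h.mul r hr _ (D.mul_mem (D.mul_mem (D.inv_mem hr) he) hr) j
    rw [h3, map_mul π, map_mul π, h1, mul_one, ← map_mul, inv_mul_cancel, map_one, Perm.one_apply,
      ← mul_assoc, mul_inv_cancel_left, h.mul e he r hr, h2] at this
    exact this
  rw [map_div, ← mul_div_mul_left_eq_div _ _ (c e j₀), key, key, mul_div_mul_right_eq_div]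

variable (X : Ex a ι N) (h1 : ∀ x, π (ι x) = 1) (h2 : ∀ᶠ u in N, π u = 1) [Finite J]
include X h1 h2

/-- Induction from the stabiliser of a point. -/
theorem Cr.ind (h : Cr a ι N D' 1 φ) {j₀ : J} (hD : ∀ e ∈ D, π e j₀ = j₀ → e ∈ D') {t : J → S}
    (ht : ∀ j, t j ∈ D) (hj : ∀ j, π (t j) j₀ = j) :
    Mc a ι N D π fun e j => a (t (π e j)) (φ ((t (π e j))⁻¹ * e * t j)) := by
  have m : ∀ e ∈ D, ∀ j, (t (π e j))⁻¹ * e * t j ∈ D' := fun e s j =>
    hD _ (D.mul_mem (D.mul_mem (D.inv_mem (ht _)) s) (ht _)) (by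
      rw [map_mul, map_mul, map_inv, Perm.mul_apply, Perm.mul_apply, hj, Perm.inv_eq_iff_eq, hj])
  refine ⟨fun e s e' s' j => ?_, fun x j => ?_,
    (h2.and (eventually_all.2 fun j => (X.cj (t j)).eventually h.cont)).mono fun u e j => ?_⟩
  · rw [map_mul π, Perm.mul_apply, show (t (π e (π e' j)))⁻¹ * (e * e') * t j =
      (t (π e (π e' j)))⁻¹ * e * t (π e' j) * ((t (π e' j))⁻¹ * e' * t j) by group,
      h.mul _ (m e s _) _ (m e' s' j), map_mul, ← a_mul, ← a_mul, ← mul_assoc, mul_inv_cancel_left]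
  · rw [h1, Perm.one_apply, X.cm, inv_mul_cancel_right, h.lvl, zpow_one, ← a_mul, mul_inv_cancel,
      map_one]
    rfl
  · rw [e.1, Perm.one_apply, e.2, map_one]

/-- Conjugation by a diagonal matrix. -/
theorem Mc.resc (h : Mc a ι N D π c) (y : J → A) :
    Mc a ι N D π fun e j => a e (y j) / y (π e j) * c e j := by
  refine ⟨fun e s e' s' j => ?_, fun x j => ?_,
    (h2.and (h.cont.and (eventually_all.2 fun j => X.fx (y j)))).mono fun u e j => ?_⟩
  · rw [h.mul e s e' s', map_mul (a e), map_div, mul_mul_mul_comm, mul_comm (_ / _) (_ / _),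
      div_mul_div_cancel, a_mul, map_mul π, Perm.mul_apply]
  · rw [h1, X.tr, Perm.one_apply, div_self', one_mul, h.lvl]
  · rw [e.1, e.2.1, e.2.2, Perm.one_apply, div_self', one_mul]

end Vale.Agent.P011LI
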