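import Vale.Agent.P011LI.Ext
import Vale.Agent.P011LQ.BR2
import Vale.Agent.P011LQ.Three
import Vale.Agent.P011LT.Basic
import Vale.Agent.P011LS.Dde

/-!
The monomial companion of degree three.
-/

open Matrix Filter Equiv SemidirectProduct

noncomputable section

namespace Vale.Agent.P011LI

open P011L P011LD P011LE P011LQ

variable {k K : Type} [Field k] [Field K] [Algebra k K] {n : Type} [Fintype n] [DecidableEq n]
  {o : (K ≃ₐ[k] K) →* ℤˣ} [Nonempty n] {p : (K ≃ₐ[k] K) → GL n K} (h : PD o p)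

section

variable {J : Type} {π : (K ≃ₐ[k] K) →* Perm J} {c : SL n o → J → Kˣ}
  (H : Mc (aS n o) (iS n o) (nb n o) (ext h) (π.comp rightHom) c)
include H

theorem cmp_of [Fintype J] [DecidableEq J] (hπ : Op ⊤ fun σ => π σ = 1) :
    Cmp o p fun σ => mg (π σ) (c ⟨p σ, σ⟩) := by
  refine ⟨fun σ τ => (h.mul σ τ).imp fun z e => ⟨e, ?_⟩, ((c_cont h H).and hπ).imp
    fun σ _ ⟨⟨a, z, b, d⟩, e⟩ => ⟨a, z, b, Matrix.ext fun i j => ?_⟩⟩
  · rw [st_mg]
    refine (mono_mul _ _ _ _).trans (Matrix.ext fun i j => ?_)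
    have := c_mul h H e j
    rw [Units.val_mul] at this
    simp only [mg, mono, this, map_mul, of_apply, Matrix.smul_apply, smul_eq_mul, mul_ite, mul_zero]
  · simp only [mg, mono, d, e, of_apply, Matrix.smul_apply, smul_eq_mul, Matrix.one_apply, mul_ite,
      mul_zero, mul_one, Perm.one_apply]

/-- The first normalisation. -/
theorem ex_diag [Algebra.IsAlgebraic k K] (i j : J) : ∃ y : Kˣ, ∀ e ∈ ext h, o e.right = 1 →
    π e.right = 1 → aS n o e y / y * c e j = c e i := by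
  obtain ⟨b, b0, hb⟩ := h90_one (Γ := o.ker ⊓ π.ker) (fun σ => c ⟨p σ, σ⟩ j / c ⟨p σ, σ⟩ i)
    (fun σ s τ t => by
      obtain ⟨z, e⟩ := h.mul σ τ
      obtain ⟨z, rfl, -⟩ := ex_sc e
      have h1 := fun j => c_mul h H e j
      simp only [show π τ = 1 from t.2, Perm.one_apply, Units.val_mul, aK_in o s.1] at h1
      rw [← mul_div_mul_left _ _ z.ne_zero, ← h1, ← h1, map_div₀, div_mul_div_comm])
    (let ⟨S, hS⟩ := c_cont h H; ⟨S, fun σ _ e => let ⟨_, z, _, d⟩ := hS σ trivial e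
      div_eq_of_eq_mul (Units.ne_zero _) ((d j).trans ((one_mul _).trans (d i)).symm)⟩)
  refine ⟨Units.mk0 b b0, fun e ⟨x, a⟩ s t => Units.ext ?_⟩
  have h1 := hb e.right ⟨s, t⟩
  rw [eq_sec a, c_sc h H (sec_mem h _), c_sc h H (sec_mem h _)]
  change ((aK o (1 * e.right) _ / _ * _ : Kˣ) : K) = _
  rw [one_mul, Units.val_mul, Units.val_div_eq_div_val, aK_in o s, Units.val_mul, Units.val_mul,
    Units.val_mk0]
  field_simp at h1 ⊢
  exact h1

end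

theorem pa_of {p : (K ≃ₐ[k] K) → GL I K} (h : DD o p) : ∃ l, PA o.ker 3 p l := by
  choose ν h1 h2 using h.sim
  refine ⟨ν, PA.of_form cub (fun c v => P011LS.cub_smul' c v)
    (v₀ := fun a => if a.1 = 0 ∧ a.2.1 = a.2.2 then 1 else 0) ?_
    (fun σ _ => ⟨h1 σ, fun v => (h2 σ _).trans (congrArg _ (P011LT.cub_map (σ : K →+* K) v))⟩)
    (fun σ s τ _ => (h.pd.mul σ τ).imp fun c e => by rwa [Units.val_mul, st_in o s] at e)
    (h.pd.cont.elim fun S hS => ⟨S, fun σ _ e => (hS σ trivial e).2⟩)⟩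
  simp [cub, det_fin_three, trace_fin_three, mul_apply]

/-- **IND** -/
theorem ind : IND := by
  intro k K _ _ _ _ _ o p hD
  have h := hD.pd
  have ho : Op ⊤ fun σ => o σ = 1 := h.cont.imp fun _ _ e => e.1
  have X := ex_SL (n := I) ho
  have hn : Odd (Fintype.card I) := by decide
  by_cases s : Spl o p
  · obtain ⟨v, v0, hv⟩ := s
    obtain ⟨φ, hφ⟩ := cr_line (D := ext h ⊓ (o.comp rightHom).ker) v0 fun e ⟨⟨x, a⟩, b⟩ =>
      ⟨b, (hv e.right b).elim fun μ m => ⟨x * μ, by rw [a, sc_mul, smul_mulVec, m, smul_smul]⟩⟩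
    obtain ⟨ψ, hψ⟩ := cr_tr ho hn (D := ext h) (fun e a b => Subgroup.mem_inf.2 ⟨a, b⟩) hφ
    exact ⟨1, _, _, cmp_of h (π := 1) hψ.mc ⟨∅, fun _ _ _ => rfl⟩, fun _ => rfl, fun _ => one_pow 3,
      fun _ _ _ _ => rfl, Or.inl rfl⟩
  obtain ⟨l, hl⟩ := pa_of hD
  obtain ⟨π, p2, p1, ⟨r, r1, r3⟩, t4⟩ := br3 hl ho (by
    rw [Subgroup.index_ker]
    exact (Subgroup.card_le_card_group _).trans (by simp)) hn
  have q1 : ∀ x, π.comp rightHom (iS I o x) = 1 := fun x => map_one π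
  have q2 : ∀ᶠ u in nb I o, π.comp rightHom u = 1 := p2
  obtain ⟨v, v0, hv⟩ := t4.line
  obtain ⟨φ, hφ⟩ := cr_line (D := ext h ⊓ (π.comp rightHom).ker ⊓ (o.comp rightHom).ker) v0
    fun e ⟨⟨⟨x, a⟩, b⟩, d⟩ => ⟨d, (hv e.right ⟨d, b⟩).elim fun μ m =>
      ⟨x * μ, by rw [a, sc_mul, smul_mulVec, m, smul_smul]⟩⟩
  obtain ⟨ψ, hψ⟩ := cr_tr ho hn (D := ext h ⊓ (π.comp rightHom).ker)
    (fun e a b => Subgroup.mem_inf.2 ⟨a, b⟩) hφ
  let ρ : SL I o := ⟨p r, r⟩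
  have hρ : ρ ∈ ext h := sec_mem h r
  obtain ⟨c, H⟩ := Exists.intro _ (hψ.ind X q1 q2 (D := ext h) (j₀ := 0) (fun e a b =>
    Subgroup.mem_inf.2 ⟨a, (by decide : ∀ g : Perm (Fin 3), g ^ 3 = 1 → g 0 = 0 → g = 1) _ (p1 _) b⟩)
    (t := fun j => ρ ^ (j : ℕ)) (fun j => pow_mem hρ _) fun j => by
      rw [map_pow, show π.comp rightHom ρ = finRotate 3 from r3]
      revert j
      decide)
  choose y hy using fun j => ex_diag h H 0 j
  obtain ⟨c, H, h1⟩ : ∃ c, Mc (aS I o) (iS I o) (nb I o) (ext h) (π.comp rightHom) c ∧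
      ∀ e ∈ ext h, o e.right = 1 → π e.right = 1 → ∀ j, c e j = c e 0 :=
    ⟨_, H.resc X q1 q2 y, fun e a b d j => by
      simp only [show π.comp rightHom e = 1 from d, Perm.one_apply, hy _ e a b d]⟩
  let y : Fin 3 → Kˣ := ![1, 1, c ρ 1 / c ρ 0]
  refine ⟨π, _, _, cmp_of h (H.resc X q1 q2 y) q2, fun _ => rfl, p1, fun σ a b j => congrArg _ ?_,
    Or.inr ⟨s, r, r1, r3, congrArg _ ?_⟩⟩
  · have h2 : ∀ j, aS I o ⟨p σ, σ⟩ (y j) = y j := Fin.forall_fin_succ.2 ⟨map_one _,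
      Fin.forall_fin_two.2 ⟨map_one _, H.fix (sec_mem h σ) hρ b (h1 _ (sec_mem h σ) a b)
        (h1 _ (mul_mem (mul_mem (inv_mem hρ) (sec_mem h σ)) hρ) (by simp [a]) (by simp [b])) 1 0⟩⟩
    simp only [show π.comp rightHom ⟨p σ, σ⟩ = 1 from b, Perm.one_apply, h2, div_self', one_mul]
    exact h1 _ (sec_mem h σ) a b j
  · rw [show π.comp rightHom ⟨p r, r⟩ = finRotate 3 from r3]
    change aS I o ρ 1 / 1 * c ρ 0 = aS I o ρ 1 / (c ρ 1 / c ρ 0) * c ρ 1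
    simp

end Vale.Agent.P011LI
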